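import Vale.Agent.P277.H821.Bundle

/-! # P277: no flips start from fibre bundles, over the base or over a complex torus -/

namespace Vale.Agent.Results.P277.FibreBundles

open Vale.Agent.P277.H821

/-- Let `X` be a compact normal complex space with a finite surjective holomorphic map `π` from a
compact complex space `Y` which is a locally trivial holomorphic fibre bundle `q : Y → S`, where
`S` has dimension at least two or the fibres are homogeneous. Let `f : X → Z` be a small
bimeromorphic morphism to a compact normal complex space such that either `f ∘ π` is over `S`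
(`q` is constant on the connected components of its fibres), or `R¹ (f ∘ π)_* O_Y = 0` and `S` has
a holomorphic map with finite fibres to a complex torus. Then `f` is an isomorphism. -/
theorem result {X Y Z S : Type*}
    [TopologicalSpace X] [CompactSpace X] [T2Space X]
    [TopologicalSpace Y] [CompactSpace Y] [T2Space Y]
    [TopologicalSpace Z] [CompactSpace Z] [T2Space Z]
    [TopologicalSpace S] [T2Space S]
    (SX : ComplexSpace X) (SY : ComplexSpace Y) (SZ : ComplexSpace Z) (SS : ComplexSpace S)
    (hX : IsNormal SX) (hZ : IsNormal SZ)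
    (π : Y → X) (d : ℕ) (R : Set X) (hπ : IsFiniteCover SY SX π d R)
    (q : Y → S) (hq : IsBundle SY SS q) (hS : DimGETwo SS ∨ HomogeneousFibres SY q)
    (f : X → Z) (hf : IsSmall SX SZ f)
    (h : IsOver (f ∘ π) q ∨
      (R1Vanishes SY (f ∘ π) ∧ ∃ (m : ℕ) (b : Module.Basis (Fin (2 * m)) ℝ (Cn m))
        (β : S → Cn m ⧸ Submodule.span ℤ (Set.range b)),
        HolToTorus SS b β ∧ ∀ a, (β ⁻¹' {a}).Finite)) :
    IsIso SX SZ f := by
  obtain ⟨B, hfB, -, hdim1⟩ := hf
  have hover : IsOver (f ∘ π) q := by
    rcases h with h | ⟨hR, m, b, β, hβ, hβf⟩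
    · exact h
    · exact isOver_of_torus (hfB.hol.1.comp hπ.hol.1) (countProp_cover hX hZ hfB hπ) hR hq.hol
        hβ hβf
  exact isIso_of_injective hZ hfB (injective_of_bundle hX hZ hfB hπ hq hover
    (hS.imp (fun h1 => ⟨h1, hdim1⟩) id))

end Vale.Agent.Results.P277.FibreBundles
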