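import Vale.Agent.P277.H821.Torus
import Vale.Agent.P277.H821.Product

/-! # P277: fourfolds from which no sequence of flips can start -/

namespace Vale.Agent.Results.P277.NoFlips

open Vale.Agent.P277.H821

/-- Let `X` be a compact normal complex fourfold admitting a finite surjective holomorphic map
from a compact complex space `Y` such that a connected group acts on `Y` without small invariant
sets, or `Y` has a compact homogeneous factor of dimension at least two, or `Y` is irreducible with
an effective holomorphic action of a complex torus of dimension at least two. Then every small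
bimeromorphic morphism from `X` to a compact normal complex space is an isomorphism; in particular
no generalized pair on `X` has a flip. -/
theorem result {X Y Z : Type*}
    [TopologicalSpace X] [CompactSpace X] [T2Space X]
    [TopologicalSpace Y] [CompactSpace Y] [T2Space Y]
    [TopologicalSpace Z] [CompactSpace Z] [T2Space Z]
    (SX : ComplexSpace X) (SY : ComplexSpace Y) (SZ : ComplexSpace Z)
    (hX : IsNormal SX) (hZ : IsNormal SZ)
    (hY : ThickAction SY ∨ HomogeneousFactor SY ∨
      (IrreducibleOfDim SY 4 ∧ ∃ (k : ℕ) (Λ : AddSubgroup (Cn k)) (a : Cn k → Y → Y),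
        2 ≤ k ∧ IsTorusAction SY k Λ a))
    (π : Y → X) (d : ℕ) (R : Set X) (hπ : IsFiniteCover SY SX π d R)
    (f : X → Z) (hf : IsSmall SX SZ f) : IsIso SX SZ f := by
  obtain ⟨B, hfB, hdim2, hdim1⟩ := hf
  refine isIso_of_injective hZ hfB ?_
  rcases hY with hY | hY | ⟨hirr, k, Λ, a, hk, ha⟩
  · exact injective_of_thick hX hZ hfB hdim2 hπ hY
  · exact injective_of_product hX hZ hfB hdim1 hπ hY
  · exact injective_of_torus hX hZ hfB hdim1 hπ hirr hk ha

end Vale.Agent.Results.P277.NoFlips
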