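import Vale.Agent.P277.H821.CurveProduct

/-! # P277: contractions of products and bundles with rationally chain connected fibres -/

namespace Vale.Agent.Results.P277.ProductsOfSurfaces

open Vale.Agent.P277.H821

/-- Let `X`, `Z` be compact normal complex spaces, `π : Y → X` a finite surjective holomorphic map,
`Y` compact, and `f : X → Z` a bimeromorphic morphism such that the connected components of the
fibres of `f ∘ π` are rationally chain connected.

(1) If `Y` is the product of a connected curve `C` and a connected space `V`, then these components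
are the sets `{s} × K`, where `K` runs through the classes of an equivalence relation `E` on `V`
independent of `s`.

(2) If `q : Y → S` is holomorphic and `S` contains no rational curve, then `q` is constant on these
components, and over each connected open subset `N` of `S` over which `q` is trivial the transport
`T` between the fibres of `q` maps these components onto each other.

(3) If `Y` is a product of two connected complex spaces of dimension at least two, or a locally
trivial holomorphic fibre bundle over a complex space `S` without rational curves, where `S` has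
dimension at least two or the fibres are homogeneous, and if `f` is small, then `f` is an
isomorphism. -/
theorem result.{u, v, w} {X : Type u} {Y : Type v} {Z : Type w}
    [TopologicalSpace X] [CompactSpace X] [T2Space X]
    [TopologicalSpace Y] [CompactSpace Y] [T2Space Y]
    [TopologicalSpace Z] [CompactSpace Z] [T2Space Z]
    (SX : ComplexSpace X) (SY : ComplexSpace Y) (SZ : ComplexSpace Z)
    (hX : IsNormal SX) (hZ : IsNormal SZ)
    (π : Y → X) (d : ℕ) (R : Set X) (hπ : IsFiniteCover SY SX π d R)
    (f : X → Z) (B : Set Z) (hf : IsModification SX SZ f B) (hR : RatChain SY (f ∘ π)) :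
    (∀ (C V : Type v) [TopologicalSpace C] [TopologicalSpace V] [ConnectedSpace C]
      [ConnectedSpace V] (SC : ComplexSpace C) (SV : ComplexSpace V) (Φ : C × V ≃ₜ Y),
      IsProduct SY SC SV Φ → IsCurve SC →
      ∃ E : V → V → Prop, Equivalence E ∧ ∀ s s' v v',
        Φ (s', v') ∈ FibreComponent (f ∘ π) (Φ (s, v)) ↔ s' = s ∧ E v v') ∧
    (∀ (S : Type v) [TopologicalSpace S] (SS : ComplexSpace S) (q : Y → S), HolMap SY SS q →
      NoRatCurve SS → (∀ y, ∀ y' ∈ FibreComponent (f ∘ π) y, q y' = q y) ∧
      ∀ (N : Set S) (T : Y → S → Y), IsTransport SY SS q N T → IsPreconnected N →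
      ∀ (y y' : Y) (t : S), q y ∈ N → t ∈ N →
        (y' ∈ FibreComponent (f ∘ π) y ↔
          q y' = q y ∧ T y' t ∈ FibreComponent (f ∘ π) (T y t))) ∧
    (ProductOfSurfaces SY ∨ BundleOverNoRat SY → IsSmall SX SZ f → IsIso SX SZ f) := by
  refine ⟨?_, ?_, ?_⟩
  · intro C V _ _ _ _ SC SV Φ hΦ hC
    exact components_of_curve hΦ hC hf hπ hR
  · intro S _ SS q hq hS
    refine ⟨isOver_of_noRat hR hq hS, fun N T hT hN y y' t hy ht => ?_⟩
    exact transport_iff (hf.hol.comp hπ.hol) (countProp_cover hX hZ hf hπ) hq.1
      (isOver_of_noRat hR hq hS) hT hN hy ht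
  · intro hY hfs
    obtain ⟨B', hfB, -, hdim1⟩ := hfs
    refine isIso_of_injective hZ hfB ?_
    rcases hY with ⟨S, S', _, _, _, _, S₁, S₂, Φ, hΦ, h1, h2⟩ | ⟨S, _, S₁, q, hq, hS, h⟩
    · exact injective_of_surfaces hΦ h1 h2 hX hZ hfB hdim1 hπ hR
    · exact injective_of_bundle hX hZ hfB hπ hq (isOver_of_noRat hR hq.hol hS)
        (h.imp (fun h1 => ⟨h1, hdim1⟩) id)

end Vale.Agent.Results.P277.ProductsOfSurfaces
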