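import Vale.Agent.P277.H821.HomBundle

/-! # P277: small contractions of spaces covered by products of surfaces, of surface bundles and of
homogeneous bundles contract no rational curve -/

namespace Vale.Agent.Results.P277.RationalCurves

open Vale.Agent.P277.H821

/-- Let `X` be a compact normal complex space with a finite surjective holomorphic map `π` from a
compact complex space `Y`, such that `Y` has a holomorphic covering by a product of two complex
surfaces (or curves) with at most countably many singular points, or `Y` is a locally trivial
holomorphic bundle over a complex space without rational curves, whose fibres are such surfaces (or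
curves) or are homogeneous. Let `f : X → Z` be a bimeromorphic morphism which contracts no divisor.
Then every rational curve in `Y` which is contracted by `f ∘ π` is constant. -/
theorem result {X Y Z : Type*}
    [TopologicalSpace X] [CompactSpace X] [T2Space X]
    [TopologicalSpace Y] [CompactSpace Y] [T2Space Y]
    [TopologicalSpace Z] [T2Space Z]
    (SX : ComplexSpace X) (SY : ComplexSpace Y) (SZ : ComplexSpace Z)
    (hX : IsNormal SX) (hY : CoveredByProduct SY ∨ SurfaceBundle SY ∨ HomogeneousBundle SY)
    (π : Y → X) (d : ℕ) (R : Set X) (hπ : IsFiniteCover SY SX π d R)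
    (f : X → Z) (B : Set Z) (hf : IsModification SX SZ f B) (hdiv : NoDivisor SX (f ⁻¹' B))
    (c : ℂ → Y) (hc : RatCurve SY c) (h0 : ∀ x, f (π (c x)) = f (π (c 0))) (x : ℂ) :
    c x = c 0 := by
  rcases hY with ⟨S, S', _, _, S₁, S₂, Φ, hΦ, h1, h2⟩ | hY | hY
  · exact no_contracted_of_cover hΦ h1 h2 hX hf hdiv hπ hc h0 x
  · exact no_contracted_of_bundle hY hX hf hdiv hπ hc h0 x
  · exact no_contracted_of_homogeneous hY hf hπ hc h0 x

end Vale.Agent.Results.P277.RationalCurves
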